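import Vale.Agent.P100.Defs
import Vale.Agent.P100.H373.Defs
import Vale.Agent.P100.H373.Main

set_option autoImplicit false

namespace Vale.Agent.Results.P100.EnergyEstimate

open Vale.Agent.P100

/-- (1) The Henon-Lane-Emden conjecture (and the cases `A ≤ -2`, `B ≤ -2`).
(2) Universal scale-invariant energy estimate, in the whole weighted subcritical range, for
positive solutions on punctured balls. -/
theorem result :
    (∀ (n : ℕ) (p q A B : ℝ), 2 ≤ n → 0 < p → 0 < q →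
      ((n : ℝ) - 2 < ((n : ℝ) + A) / (p + 1) + ((n : ℝ) + B) / (q + 1) ∨ A ≤ -2 ∨ B ≤ -2) →
      ¬ ∃ u v : EuclideanSpace ℝ (Fin n) → ℝ, IsPositiveEntireSolution n p q A B u v) ∧
    (∀ (n : ℕ) (p q A B : ℝ), 3 ≤ n → 0 < p → 0 < q → 1 < p * q → -2 < A → -2 < B →
      (n : ℝ) - 2 < ((n : ℝ) + A) / (p + 1) + ((n : ℝ) + B) / (q + 1) →
      ∃ C : ℝ, 1 ≤ C ∧ ∀ R : ℝ, 0 < R → ∀ u v : EuclideanSpace ℝ (Fin n) → ℝ,
        IsPositiveBallSolution n p q A B R u v →
        ∫⁻ x in Metric.ball 0 (R / C),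
          ENNReal.ofReal (‖x‖ ^ A * v x ^ (p + 1) + ‖x‖ ^ B * u x ^ (q + 1)) ≤
        ENNReal.ofReal
          (C * R ^ ((n : ℝ) - 2 - ((2 + A) * (q + 1) + (2 + B) * (p + 1)) / (p * q - 1)))) := by
  refine ⟨?_, ?_⟩
  · intro n p q A B hn hp hq h
    rcases h with h | h | h
    · exact RM.no_solution_all hn hp hq (Or.inr (Or.inr h))
    · exact RM.no_solution_all hn hp hq (Or.inl h)
    · exact RM.no_solution_all hn hp hq (Or.inr (Or.inl h))
  · intro n p q A B hn hp hq hpq hA hB hw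
    exact RM.energy_final n p q A B hn hp hq hpq hA hB hw

end Vale.Agent.Results.P100.EnergyEstimate
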