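import Vale.Agent.P100.Bdl.B3
import Vale.Agent.P100.H20.SysN
import Vale.Agent.P100.H20.Hom
import Vale.Agent.P100.H20.Growing
import Vale.Agent.P100.H20.Liouville

namespace Vale.Agent.Results.P100.GeneralWeights

open Vale.Agent.P100

/-- The Henon-Lane-Emden conjecture, and the Liouville theorem (every nonnegative entire solution
vanishes identically) for the systems `-Δ u = K(x) v^p`, `-Δ v = L(x) u^q` with arbitrary
homogeneous weights `K`, `L` of degrees `A`, `B`, and (for `A, B > -2`) with arbitrary weights of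
radial degree at least `A`, `B`. -/
theorem result (n : ℕ) (hn : 2 ≤ n) (p q A B : ℝ) (hp : 0 < p) (hq : 0 < q)
    (h : (n : ℝ) - 2 < ((n : ℝ) + A) / (p + 1) + ((n : ℝ) + B) / (q + 1) ∨ A ≤ -2 ∨ B ≤ -2) :
    (¬ ∃ u v : EuclideanSpace ℝ (Fin n) → ℝ, IsPositiveEntireSolution n p q A B u v) ∧
    (∀ K L : EuclideanSpace ℝ (Fin n) → ℝ, IsHomogeneousWeight n A K → IsHomogeneousWeight n B L →
      ∀ u v : EuclideanSpace ℝ (Fin n) → ℝ, IsNonnegEntireSolutionW n p q K L u v →
        ∀ x, u x = 0 ∧ v x = 0) ∧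
    (-2 < A → -2 < B → ∀ K L : EuclideanSpace ℝ (Fin n) → ℝ,
      IsGrowingWeight n A K → IsGrowingWeight n B L →
      ∀ u v : EuclideanSpace ℝ (Fin n) → ℝ, IsNonnegEntireSolutionW n p q K L u v →
        ∀ x, u x = 0 ∧ v x = 0) := by
  refine ⟨?_, ?_, ?_⟩
  · rcases h with h | h | h
    · exact RM.no_solution_all hn hp hq (Or.inr (Or.inr h))
    · exact RM.no_solution_all hn hp hq (Or.inl h)
    · exact RM.no_solution_all hn hp hq (Or.inr (Or.inl h))
  · intro K L hK hL u v hs
    exact H20.liouville_homogeneous hn hp hq h hK hL hs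
  · intro hA hB K L hK hL u v hs
    refine H20.liouville_growing hn hp hq hA hB ?_ hK hL hs
    rcases h with h | h | h
    · exact h
    · linarith only [hA, h]
    · linarith only [hB, h]

end Vale.Agent.Results.P100.GeneralWeights
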