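import Vale.Agent.P100.H115.Main
import Vale.Agent.P100.H327.Local

open Set Metric

namespace Vale.Agent.Results.P100.UniversalEstimates

open Vale.Agent.P100

/-- The Henon-Lane-Emden conjecture (all subcritical parameters), and universal a priori estimates
for all nonnegative solutions on arbitrary domains, with the sharp powers of the distance to the
boundary, for all superlinear subcritical exponents. -/
theorem result :
    -- (1) Q1 exactly as posed
    (∀ (n : ℕ), 2 ≤ n → ∀ p q A B : ℝ, 0 < p → 0 < q →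
      ((n : ℝ) - 2 < ((n : ℝ) + A) / (p + 1) + ((n : ℝ) + B) / (q + 1) ∨ A ≤ -2 ∨ B ≤ -2) →
      ¬ ∃ u v : EuclideanSpace ℝ (Fin n) → ℝ, IsPositiveEntireSolution n p q A B u v) ∧
    (∀ (n : ℕ), 2 ≤ n → ∀ p q : ℝ, 0 < p → 0 < q → 1 < p * q →
      (n : ℝ) - 2 < (n : ℝ) / (p + 1) + (n : ℝ) / (q + 1) →
      -- (2) all domains, Lane-Emden system
      (∃ C : ℝ, 0 < C ∧
        ∀ (Ω : Set (EuclideanSpace ℝ (Fin n))) (u v : EuclideanSpace ℝ (Fin n) → ℝ),
          IsOpen Ω → Ω ≠ univ → IsNonnegSolutionOn n p q 0 0 Ω u v →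
          ∀ x ∈ Ω, Bounds p q u v x C C (infDist x Ωᶜ)) ∧
      ∀ A B : ℝ, ∃ C : ℝ, 0 < C ∧
        -- (3) all domains, weights
        (∀ (Ω : Set (EuclideanSpace ℝ (Fin n))) (u v : EuclideanSpace ℝ (Fin n) → ℝ),
          IsOpen Ω → 0 ∉ Ω → IsNonnegSolutionOn n p q A B Ω u v →
          ∀ x ∈ Ω, Bounds p q u v x (C * ‖x‖ ^ (-((A + B * p) / (p * q - 1))))
            (C * ‖x‖ ^ (-((B + A * q) / (p * q - 1)))) (infDist x Ωᶜ)) ∧
        -- (4) isolated singularities, decay at infinity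
        ∀ (ρ : ℝ) (u v : EuclideanSpace ℝ (Fin n) → ℝ) (x : EuclideanSpace ℝ (Fin n)), 0 < ρ →
          (IsNonnegSolutionOn n p q A B (ball 0 ρ \ {0}) u v → x ≠ 0 → ‖x‖ ≤ ρ / 2 →
            Bounds p q u v x (C * ‖x‖ ^ (-((A + B * p) / (p * q - 1))))
              (C * ‖x‖ ^ (-((B + A * q) / (p * q - 1)))) ‖x‖) ∧
          (IsNonnegSolutionOn n p q A B (closedBall 0 ρ)ᶜ u v → 2 * ρ ≤ ‖x‖ →
            Bounds p q u v x (C * ‖x‖ ^ (-((A + B * p) / (p * q - 1))))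
              (C * ‖x‖ ^ (-((B + A * q) / (p * q - 1)))) ‖x‖)) :=
  H115.main fun _ hn _ _ hp hq hpq hs Λ hΛ => H327.local_bound hn hp hq hpq hs Λ hΛ

end Vale.Agent.Results.P100.UniversalEstimates
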